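import Vale.Agent.Lib.P346.Main

namespace Vale.Agent.Results.P346.NonlinearSqrtGrowth

open Vale.Agent.Lib.P346

/-- Homogeneous depth-five circuits computing iterated matrix multiplication, with the number of
non-linear factors of the upper product gates as the parameter.

(1) If, for some valid assignment of formal degrees, every upper product gate of a circuit
computing `IMM n d` has at most `τ` inputs (with multiplicity) of formal degree at least two,
then `n ^ (d - 1) ≤ 2 ^ d * size ^ (τ + 1)`.

(2) For `n ≥ 9` and `a ≥ 1`: if every upper product gate of a circuit computing `IMM n n` has at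
most `a * sqrt n` inputs (with multiplicity) of formal degree at least two, then the circuit has
size at least `n ^ (sqrt n / (4 a))`. -/
theorem result (K : Type) [Field K] :
    (∀ (n d τ : ℕ) [NeZero n] (c : Circuit K (Fin d × Fin n × Fin n))
        (dBot : Fin c.nSumBot → ℕ) (dMid : Fin c.nSumMid → ℕ) (dOut : ℕ),
        c.HasDegrees dBot dMid dOut → c.eval = IMM K n d →
        (∀ t, ∑ h, (if 2 ≤ dMid h then c.mTop t h else 0) ≤ τ) →
        n ^ (d - 1) ≤ 2 ^ d * c.size ^ (τ + 1)) ∧
    (∀ (n a : ℕ) [NeZero n], 9 ≤ n → 1 ≤ a →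
        ∀ (c : Circuit K (Fin n × Fin n × Fin n))
          (dBot : Fin c.nSumBot → ℕ) (dMid : Fin c.nSumMid → ℕ) (dOut : ℕ),
        c.HasDegrees dBot dMid dOut → c.eval = IMM K n n →
        (∀ t, (∑ h, (if 2 ≤ dMid h then c.mTop t h else 0)) ^ 2 ≤ a ^ 2 * n) →
        (n : ℝ) ^ (Real.sqrt n / (4 * a)) ≤ (c.size : ℝ)) := by
  refine ⟨?_, ?_⟩
  · intro n d τ _ c dBot dMid dOut hdeg hval hfan
    exact imm_bound_general c dBot dMid dOut hdeg τ hfan hval
  · intro n a _ hn ha c dBot dMid dOut hdeg hval hfan
    have h1 := imm_bound_general c dBot dMid dOut hdeg (Nat.sqrt (a ^ 2 * n))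
      (fun t => Nat.le_sqrt'.mpr (hfan t)) hval
    exact real_sqrt_bound n a (Nat.sqrt (a ^ 2 * n)) c.size hn ha (Nat.sqrt_le' _) h1

end Vale.Agent.Results.P346.NonlinearSqrtGrowth
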