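import Vale.Agent.Lib.P346.Main

namespace Vale.Agent.Results.P346.NonlinearTradeoff

open Vale.Agent.Lib.P346

/-- Size versus the number of non-linear factors for homogeneous depth-five circuits computing
`IMM n d`: if, for some valid assignment of formal degrees, every upper product gate has at
most `τ` inputs (with multiplicity) of formal degree at least two, then
`n ^ (d - 1) ≤ 2 ^ d * size ^ (τ + 1)`. -/
theorem result (K : Type) [Field K] (n d τ : ℕ) [NeZero n]
    (c : Circuit K (Fin d × Fin n × Fin n))
    (dBot : Fin c.nSumBot → ℕ) (dMid : Fin c.nSumMid → ℕ) (dOut : ℕ)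
    (hdeg : c.HasDegrees dBot dMid dOut)
    (hval : c.eval = IMM K n d)
    (hfan : ∀ t, ∑ h, (if 2 ≤ dMid h then c.mTop t h else 0) ≤ τ) :
    n ^ (d - 1) ≤ 2 ^ d * c.size ^ (τ + 1) :=
  imm_bound_general c dBot dMid dOut hdeg τ hfan hval

end Vale.Agent.Results.P346.NonlinearTradeoff
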