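import Vale.Agent.Lib.P346.Main

namespace Vale.Agent.Results.P346.SqrtGrowth

open Vale.Agent.Lib.P346

/-- For `n ≥ 9` and `a ≥ 1`: a homogeneous depth-five circuit computing `IMM n n` all of whose
upper product gates have fan-in at most `a * sqrt n` has size at least `n ^ (sqrt n / (4 a))`. -/
theorem result (K : Type) [Field K] (n a : ℕ) [NeZero n] (hn : 9 ≤ n) (ha : 1 ≤ a)
    (c : Circuit K (Fin n × Fin n × Fin n)) (hom : c.IsHomogeneous)
    (hval : c.eval = IMM K n n) (hfan : ∀ t, (∑ h, c.mTop t h) ^ 2 ≤ a ^ 2 * n) :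
    (n : ℝ) ^ (Real.sqrt n / (4 * a)) ≤ (c.size : ℝ) :=
  imm_sqrt_bound a hn ha c hom hval hfan

end Vale.Agent.Results.P346.SqrtGrowth
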