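import Vale.Agent.Lib.P346.Main

namespace Vale.Agent.Results.P346.TopFanin

open Vale.Agent.Lib.P346

/-- Size versus top product fan-in for homogeneous depth-five circuits computing `IMM n d`:
if every upper product gate has at most `τ` inputs counted with multiplicity, then
`n ^ (d - 1) ≤ 2 ^ d * size ^ (τ + 1)`. -/
theorem result (K : Type) [Field K] (n d τ : ℕ) [NeZero n]
    (c : Circuit K (Fin d × Fin n × Fin n)) (hom : c.IsHomogeneous)
    (hval : c.eval = IMM K n d) (hfan : ∀ t, ∑ h, c.mTop t h ≤ τ) :
    n ^ (d - 1) ≤ 2 ^ d * c.size ^ (τ + 1) :=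
  imm_bound_fanin c hom hval τ hfan

end Vale.Agent.Results.P346.TopFanin
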